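import Mathlib

/-!
Definitions for P339: 2-to-1 games (uniform distribution on a finite list of constraints),
Max-Not-2 instances, and the explicit linear-size reduction between them.
-/

namespace Vale.Agent.Lib.P339

/-- A 2-to-1 game with alphabets `Fin (2 * q)` and `Fin q`, finite vertex sets `U`, `V`, constraints
indexed by `E` (the distribution on `E` is uniform).  Each constraint `e` joins `u e` and `v e` and
carries a map `π e` such that every `b : Fin q` has exactly two preimages. -/
structure TwoToOneGame (q : ℕ) (U V E : Type) where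
  u : E → U
  v : E → V
  π : E → Fin (2 * q) → Fin q
  twoToOne : ∀ (e : E) (b : Fin q), (Finset.univ.filter (fun a => π e a = b)).card = 2

/-- Number of constraints satisfied by the labeling `A`, `B`. -/
def TwoToOneGame.satCount {q : ℕ} {U V E : Type} [Fintype E] (G : TwoToOneGame q U V E)
    (A : U → Fin (2 * q)) (B : V → Fin q) : ℕ :=
  (Finset.univ.filter (fun e => G.π e (A (G.u e)) = B (G.v e))).card

/-- The value of the game: the largest fraction of constraints satisfied by a labeling. -/
noncomputable def TwoToOneGame.value {q : ℕ} {U V E : Type} [Fintype E]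
    (G : TwoToOneGame q U V E) : ℝ :=
  ⨆ L : (U → Fin (2 * q)) × (V → Fin q), (G.satCount L.1 L.2 : ℝ) / (Fintype.card E : ℝ)

/-- The Not-Two predicate on three bits: false exactly when exactly two of the bits are true. -/
def notTwo (a b c : Bool) : Bool :=
  !((a && b && !c) || (a && !b && c) || (!a && b && c))

/-- A Max-Not-2 instance on `n` variables with `m` constraints: each constraint applies `notTwo`
to three literals, given by variables `var j i` and negation flags `neg j i`. -/
structure NotTwoInstance (n m : ℕ) where
  var : Fin m → Fin 3 → Fin n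
  neg : Fin m → Fin 3 → Bool

/-- The value of the literal `i` of constraint `j` under the assignment `g`. -/
def NotTwoInstance.lit {n m : ℕ} (I : NotTwoInstance n m) (g : Fin n → Bool) (j : Fin m)
    (i : Fin 3) : Bool :=
  xor (g (I.var j i)) (I.neg j i)

/-- Number of constraints satisfied by the assignment `g`. -/
def NotTwoInstance.satCount {n m : ℕ} (I : NotTwoInstance n m) (g : Fin n → Bool) : ℕ :=
  (Finset.univ.filter (fun j => notTwo (I.lit g j 0) (I.lit g j 1) (I.lit g j 2) = true)).card

/-- The value of the instance: the largest fraction of constraints satisfied by an assignment. -/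
noncomputable def NotTwoInstance.value {n m : ℕ} (I : NotTwoInstance n m) : ℝ :=
  ⨆ g : Fin n → Bool, (I.satCount g : ℝ) / (m : ℝ)

/-! Labels: `Fin 8` encodes three bits `(p, q, c)` as `4 p + 2 q + c`; `Fin 4` encodes two bits
`(p, c)` as `2 p + c`. -/

/-- `(p, q, c) ↦ (p, q)`. -/
def pHi : Fin 8 → Fin 4 := ![0, 0, 1, 1, 2, 2, 3, 3]
/-- `(p, q, c) ↦ (p, c)`. -/
def pOut : Fin 8 → Fin 4 := ![0, 1, 0, 1, 2, 3, 2, 3]
/-- `(p, q, c) ↦ (q, c)`. -/
def pLo : Fin 8 → Fin 4 := ![0, 1, 2, 3, 0, 1, 2, 3]
/-- If `s` holds, flip the first bit of a two-bit label. -/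
def tw (s : Bool) : Fin 4 → Fin 4 := if s then ![2, 3, 0, 1] else ![0, 1, 2, 3]

/-- The three maps out of the clause vertex, onto the labels of the pairs (literal 0, literal 1),
(literal 0, literal 2), (literal 1, literal 2).  The eight labels are: the five satisfying
patterns `000, 001, 010, 100, 111` (indices 0 to 4), a second copy of `111` (index 5), and two
filler labels (indices 6, 7) whose three images are pairwise inconsistent. -/
def pClause : Fin 3 → Fin 8 → Fin 4 :=
  ![![0, 0, 1, 2, 3, 3, 1, 2], ![0, 1, 0, 2, 3, 3, 2, 1], ![0, 1, 2, 0, 3, 3, 1, 2]]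

/-- First literal of the pair `k` of literals (pairs: 0 = (0,1), 1 = (0,2), 2 = (1,2)). -/
def pairFst : Fin 3 → Fin 3 := ![0, 0, 1]
/-- Second literal of the pair `k` of literals. -/
def pairSnd : Fin 3 → Fin 3 := ![1, 2, 2]

/-- Right endpoint of the test `i` at left vertex `(j, l)`: for `l = none` (the clause vertex of
clause `j`) it is the pair vertex `(j, i)`; for `l = some k` (the checking vertex of pair `k`) the
three tests go to the pair vertex `(j, k)` and to the two variable vertices of the pair. -/
def NotTwoInstance.rightEnd {n m : ℕ} (I : NotTwoInstance n m) (j : Fin m) (l : Option (Fin 3))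
    (i : Fin 3) : Fin n ⊕ (Fin m × Fin 3) :=
  match l with
  | none => Sum.inr (j, i)
  | some k => ![Sum.inr (j, k), Sum.inl (I.var j (pairFst k)), Sum.inl (I.var j (pairSnd k))] i

/-- The map of the test `i` at left vertex `(j, l)`. -/
def NotTwoInstance.testMap {n m : ℕ} (I : NotTwoInstance n m) (j : Fin m) (l : Option (Fin 3))
    (i : Fin 3) : Fin 8 → Fin 4 :=
  match l with
  | none => pClause i
  | some k => ![pHi, fun a => tw (I.neg j (pairFst k)) (pOut a),
      fun a => tw (I.neg j (pairSnd k)) (pLo a)] i

theorem pClause_regular : ∀ (i : Fin 3) (b : Fin 4),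
    (Finset.univ.filter (fun a : Fin 8 => pClause i a = b)).card = 2 := by decide

theorem pHi_regular : ∀ (b : Fin 4),
    (Finset.univ.filter (fun a : Fin 8 => pHi a = b)).card = 2 := by decide

theorem pOut_regular : ∀ (s : Bool) (b : Fin 4),
    (Finset.univ.filter (fun a : Fin 8 => tw s (pOut a) = b)).card = 2 := by decide

theorem pLo_regular : ∀ (s : Bool) (b : Fin 4),
    (Finset.univ.filter (fun a : Fin 8 => tw s (pLo a) = b)).card = 2 := by decide

/-- The reduction: a 2-to-1 game with `q = 4`, with `4 m` left vertices, `n + 3 m` right vertices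
and `12 m` constraints.  Left vertices: a clause vertex `(j, none)` and three checking vertices
`(j, some k)` per clause `j`.  Right vertices: one vertex per variable, three pair vertices per
clause.  Each left vertex has three tests. -/
def NotTwoInstance.toGame {n m : ℕ} (I : NotTwoInstance n m) :
    TwoToOneGame 4 (Fin m × Option (Fin 3)) (Fin n ⊕ (Fin m × Fin 3))
      (Fin m × Option (Fin 3) × Fin 3) where
  u e := (e.1, e.2.1)
  v e := I.rightEnd e.1 e.2.1 e.2.2
  π e := I.testMap e.1 e.2.1 e.2.2
  twoToOne := by
    rintro ⟨j, l, i⟩ b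
    cases l with
    | none => exact pClause_regular i b
    | some k =>
      fin_cases i
      · exact pHi_regular b
      · exact pOut_regular _ b
      · exact pLo_regular _ b

end Vale.Agent.Lib.P339
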