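import Vale.Agent.Lib.P339.Defs

namespace Vale.Agent.Lib.P339

/-- Two bits as a label in `Fin 4`. -/
def mk2 (p c : Bool) : Fin 4 := if p then (if c then 3 else 2) else (if c then 1 else 0)

/-- The first bit of a label in `Fin 4`. -/
def hi : Fin 4 → Bool := ![false, false, true, true]

/-- Three bits as a label in `Fin 8`. -/
def mk3 (p q c : Bool) : Fin 8 :=
  if p then (if q then (if c then 7 else 6) else (if c then 5 else 4))
  else (if q then (if c then 3 else 2) else (if c then 1 else 0))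

/-- The label of the clause vertex for a satisfying pattern. -/
def clauseLabel (p q r : Bool) : Fin 8 :=
  if p then (if q then 4 else 3) else (if q then 2 else (if r then 1 else 0))

/-- Number of satisfied tests at a checking vertex. -/
def tL (s1 s2 : Bool) (e r1 r2 : Fin 4) (a : Fin 8) : ℕ :=
  (if pHi a = e then 1 else 0) + (if tw s1 (pOut a) = r1 then 1 else 0)
    + (if tw s2 (pLo a) = r2 then 1 else 0)

/-- Number of satisfied tests at a clause vertex. -/
def tA (a : Fin 8) (e0 e1 e2 : Fin 4) : ℕ :=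
  (if pClause 0 a = e0 then 1 else 0) + (if pClause 1 a = e1 then 1 else 0)
    + (if pClause 2 a = e2 then 1 else 0)

theorem tL_le : ∀ (s1 s2 : Bool) (e r1 r2 : Fin 4) (a : Fin 8),
    tL s1 s2 e r1 r2 a + (if e = mk2 (xor (hi r1) s1) (xor (hi r2) s2) then 0 else 1) ≤ 3 := by
  decide +kernel

theorem tA_le : ∀ (p q r : Bool) (a : Fin 8) (e0 e1 e2 : Fin 4), notTwo p q r = false →
    tA a e0 e1 e2 ≤ 1 + (if e0 = mk2 p q then 0 else 1) + (if e1 = mk2 p r then 0 else 1)
      + (if e2 = mk2 q r then 0 else 1) := by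
  decide +kernel

theorem tL_le_three (s1 s2 : Bool) (e r1 r2 : Fin 4) (a : Fin 8) : tL s1 s2 e r1 r2 a ≤ 3 := by
  have := tL_le s1 s2 e r1 r2 a
  omega

theorem tA_le_three (a : Fin 8) (e0 e1 e2 : Fin 4) : tA a e0 e1 e2 ≤ 3 := by
  unfold tA
  split_ifs <;> omega

theorem clauseLabel_spec : ∀ (p q r : Bool), notTwo p q r = true →
    pClause 0 (clauseLabel p q r) = mk2 p q ∧ pClause 1 (clauseLabel p q r) = mk2 p r ∧
      pClause 2 (clauseLabel p q r) = mk2 q r := by
  decide +kernel

theorem checkLabel_spec : ∀ (x y s1 s2 : Bool),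
    pHi (mk3 (xor x s1) (xor y s2) false) = mk2 (xor x s1) (xor y s2) ∧
      tw s1 (pOut (mk3 (xor x s1) (xor y s2) false)) = mk2 x false ∧
      tw s2 (pLo (mk3 (xor x s1) (xor y s2) false)) = mk2 y false := by
  decide +kernel

variable {n m : ℕ}

/-- The satisfied tests of the game, clause by clause. -/
theorem satCount_eq (I : NotTwoInstance n m) (A : (Fin m × Option (Fin 3)) → Fin (2 * 4))
    (B : (Fin n ⊕ (Fin m × Fin 3)) → Fin 4) :
    I.toGame.satCount A B = ∑ j : Fin m,
      (tA (A (j, none)) (B (Sum.inr (j, 0))) (B (Sum.inr (j, 1))) (B (Sum.inr (j, 2)))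
      + tL (I.neg j 0) (I.neg j 1) (B (Sum.inr (j, 0))) (B (Sum.inl (I.var j 0)))
          (B (Sum.inl (I.var j 1))) (A (j, some 0))
      + tL (I.neg j 0) (I.neg j 2) (B (Sum.inr (j, 1))) (B (Sum.inl (I.var j 0)))
          (B (Sum.inl (I.var j 2))) (A (j, some 1))
      + tL (I.neg j 1) (I.neg j 2) (B (Sum.inr (j, 2))) (B (Sum.inl (I.var j 1)))
          (B (Sum.inl (I.var j 2))) (A (j, some 2))) := by
  unfold TwoToOneGame.satCount
  rw [Finset.card_filter, Fintype.sum_prod_type]
  refine Finset.sum_congr rfl fun j _ => ?_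
  rw [Fintype.sum_prod_type, Fintype.sum_option]
  simp only [Fin.sum_univ_three, NotTwoInstance.toGame, NotTwoInstance.rightEnd,
    NotTwoInstance.testMap, tA, tL]
  simp [pairFst, pairSnd, add_assoc]
  congr!

/-- Per-clause bound: twelve tests, at most ten satisfied when the decoded assignment violates
the clause. -/
theorem local_bound (I : NotTwoInstance n m) (A : (Fin m × Option (Fin 3)) → Fin (2 * 4))
    (B : (Fin n ⊕ (Fin m × Fin 3)) → Fin 4) (j : Fin m) :
    (tA (A (j, none)) (B (Sum.inr (j, 0))) (B (Sum.inr (j, 1))) (B (Sum.inr (j, 2)))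
      + tL (I.neg j 0) (I.neg j 1) (B (Sum.inr (j, 0))) (B (Sum.inl (I.var j 0)))
          (B (Sum.inl (I.var j 1))) (A (j, some 0))
      + tL (I.neg j 0) (I.neg j 2) (B (Sum.inr (j, 1))) (B (Sum.inl (I.var j 0)))
          (B (Sum.inl (I.var j 2))) (A (j, some 1))
      + tL (I.neg j 1) (I.neg j 2) (B (Sum.inr (j, 2))) (B (Sum.inl (I.var j 1)))
          (B (Sum.inl (I.var j 2))) (A (j, some 2)))
      + 2 * (if notTwo (I.lit (fun x => hi (B (Sum.inl x))) j 0)
          (I.lit (fun x => hi (B (Sum.inl x))) j 1)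
          (I.lit (fun x => hi (B (Sum.inl x))) j 2) = true then 0 else 1) ≤ 12 := by
  set g : Fin n → Bool := fun x => hi (B (Sum.inl x)) with hg
  split_ifs with hsat
  · have h0 := tA_le_three (A (j, none)) (B (Sum.inr (j, 0))) (B (Sum.inr (j, 1)))
      (B (Sum.inr (j, 2)))
    have h1 := tL_le_three (I.neg j 0) (I.neg j 1) (B (Sum.inr (j, 0)))
      (B (Sum.inl (I.var j 0))) (B (Sum.inl (I.var j 1))) (A (j, some 0))
    have h2 := tL_le_three (I.neg j 0) (I.neg j 2) (B (Sum.inr (j, 1)))
      (B (Sum.inl (I.var j 0))) (B (Sum.inl (I.var j 2))) (A (j, some 1))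
    have h3 := tL_le_three (I.neg j 1) (I.neg j 2) (B (Sum.inr (j, 2)))
      (B (Sum.inl (I.var j 1))) (B (Sum.inl (I.var j 2))) (A (j, some 2))
    omega
  · have hviol : notTwo (I.lit g j 0) (I.lit g j 1) (I.lit g j 2) = false := by
      simpa using hsat
    have h0 := tA_le (I.lit g j 0) (I.lit g j 1) (I.lit g j 2) (A (j, none))
      (B (Sum.inr (j, 0))) (B (Sum.inr (j, 1))) (B (Sum.inr (j, 2))) hviol
    have h1 := tL_le (I.neg j 0) (I.neg j 1) (B (Sum.inr (j, 0)))
      (B (Sum.inl (I.var j 0))) (B (Sum.inl (I.var j 1))) (A (j, some 0))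
    have h2 := tL_le (I.neg j 0) (I.neg j 2) (B (Sum.inr (j, 1)))
      (B (Sum.inl (I.var j 0))) (B (Sum.inl (I.var j 2))) (A (j, some 1))
    have h3 := tL_le (I.neg j 1) (I.neg j 2) (B (Sum.inr (j, 2)))
      (B (Sum.inl (I.var j 1))) (B (Sum.inl (I.var j 2))) (A (j, some 2))
    have e0 : I.lit g j 0 = xor (hi (B (Sum.inl (I.var j 0)))) (I.neg j 0) := rfl
    have e1 : I.lit g j 1 = xor (hi (B (Sum.inl (I.var j 1)))) (I.neg j 1) := rfl
    have e2 : I.lit g j 2 = xor (hi (B (Sum.inl (I.var j 2)))) (I.neg j 2) := rfl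
    rw [← e0, ← e1] at h1
    rw [← e0, ← e2] at h2
    rw [← e1, ← e2] at h3
    omega

/-- Counting form of soundness. -/
theorem count_bound (I : NotTwoInstance n m) (A : (Fin m × Option (Fin 3)) → Fin (2 * 4))
    (B : (Fin n ⊕ (Fin m × Fin 3)) → Fin 4) :
    I.toGame.satCount A B + 2 * (m - I.satCount (fun x => hi (B (Sum.inl x)))) ≤ 12 * m := by
  set g : Fin n → Bool := fun x => hi (B (Sum.inl x)) with hg
  have hsum : ∑ j : Fin m, ((tA (A (j, none)) (B (Sum.inr (j, 0))) (B (Sum.inr (j, 1)))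
        (B (Sum.inr (j, 2)))
      + tL (I.neg j 0) (I.neg j 1) (B (Sum.inr (j, 0))) (B (Sum.inl (I.var j 0)))
          (B (Sum.inl (I.var j 1))) (A (j, some 0))
      + tL (I.neg j 0) (I.neg j 2) (B (Sum.inr (j, 1))) (B (Sum.inl (I.var j 0)))
          (B (Sum.inl (I.var j 2))) (A (j, some 1))
      + tL (I.neg j 1) (I.neg j 2) (B (Sum.inr (j, 2))) (B (Sum.inl (I.var j 1)))
          (B (Sum.inl (I.var j 2))) (A (j, some 2)))
      + 2 * (if notTwo (I.lit g j 0) (I.lit g j 1) (I.lit g j 2) = true then 0 else 1))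
      ≤ ∑ _j : Fin m, 12 := Finset.sum_le_sum fun j _ => local_bound I A B j
  rw [Finset.sum_add_distrib, ← Finset.mul_sum, ← satCount_eq I A B] at hsum
  simp only [Finset.sum_const, Finset.card_univ, Fintype.card_fin, smul_eq_mul] at hsum
  have hcount : ∑ j : Fin m, (if notTwo (I.lit g j 0) (I.lit g j 1) (I.lit g j 2) = true
      then 0 else 1) + I.satCount g = m := by
    unfold NotTwoInstance.satCount
    rw [Finset.card_filter, ← Finset.sum_add_distrib]
    have : ∀ j : Fin m, (if notTwo (I.lit g j 0) (I.lit g j 1) (I.lit g j 2) = true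
        then 0 else 1) + (if notTwo (I.lit g j 0) (I.lit g j 1) (I.lit g j 2) = true
        then 1 else 0) = 1 := by
      intro j; split_ifs <;> rfl
    simp [this]
  omega

/-- A labeling is a nonempty type of maps. -/
instance : Nonempty (((Fin m × Option (Fin 3)) → Fin (2 * 4)) × ((Fin n ⊕ (Fin m × Fin 3)) → Fin 4)) :=
  ⟨(fun _ => (0 : Fin 8), fun _ => (0 : Fin 4))⟩

theorem card_edges : Fintype.card (Fin m × Option (Fin 3) × Fin 3) = 12 * m := by
  simp [Fintype.card_prod, Fintype.card_option]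
  ring

theorem satCount_le_m (I : NotTwoInstance n m) (g : Fin n → Bool) : I.satCount g ≤ m := by
  unfold NotTwoInstance.satCount
  calc _ ≤ (Finset.univ : Finset (Fin m)).card := Finset.card_filter_le _ _
    _ = m := by simp

theorem frac_le_value (I : NotTwoInstance n m) (g : Fin n → Bool) :
    (I.satCount g : ℝ) / (m : ℝ) ≤ I.value :=
  le_ciSup (f := fun g : Fin n → Bool => (I.satCount g : ℝ) / (m : ℝ))
    (Set.finite_range _).bddAbove g

/-- Soundness: the value of the game is at most `1 - (1 - value I) / 6`. -/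
theorem value_le (hm : 0 < m) (I : NotTwoInstance n m) :
    I.toGame.value ≤ 1 - (1 - I.value) / 6 := by
  unfold TwoToOneGame.value
  refine ciSup_le fun L => ?_
  obtain ⟨A, B⟩ := L
  have hm' : (0 : ℝ) < m := by exact_mod_cast hm
  have h := count_bound I A B
  have hle := satCount_le_m I (fun x => hi (B (Sum.inl x)))
  have hv := frac_le_value I (fun x => hi (B (Sum.inl x)))
  set s := I.satCount (fun x => hi (B (Sum.inl x))) with hs
  have hcard : (Fintype.card (Fin m × Option (Fin 3) × Fin 3) : ℝ) = 12 * m := by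
    rw [card_edges]; push_cast; ring
  simp only
  rw [hcard]
  have h' : (I.toGame.satCount A B : ℝ) + 2 * ((m : ℝ) - s) ≤ 12 * m := by
    have : I.toGame.satCount A B + 2 * (m - s) ≤ 12 * m := h
    have hcast : ((m - s : ℕ) : ℝ) = (m : ℝ) - s := by
      rw [Nat.cast_sub hle]
    have h2 : ((I.toGame.satCount A B + 2 * (m - s) : ℕ) : ℝ) ≤ ((12 * m : ℕ) : ℝ) := by
      exact_mod_cast this
    push_cast at h2
    rw [Nat.cast_sub hle] at h2
    exact h2
  have h3 : (I.toGame.satCount A B : ℝ) / (12 * m) ≤ 1 - (1 - (s : ℝ) / m) / 6 := by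
    rw [div_le_iff₀ (by positivity)]
    field_simp
    nlinarith
  have h4 : 1 - (1 - (s : ℝ) / m) / 6 ≤ 1 - (1 - I.value) / 6 := by linarith
  exact le_trans h3 h4

/-- Every labeling has value at most one. -/
theorem game_value_le_one (hm : 0 < m) (I : NotTwoInstance n m) : I.toGame.value ≤ 1 := by
  unfold TwoToOneGame.value
  refine ciSup_le fun L => ?_
  have hpos : (0 : ℝ) < (Fintype.card (Fin m × Option (Fin 3) × Fin 3) : ℝ) := by
    rw [card_edges]; positivity
  rw [div_le_one hpos]
  unfold TwoToOneGame.satCount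
  exact_mod_cast (Finset.card_filter_le _ _).trans (by simp)

/-- A satisfying assignment gives a labeling satisfying all tests. -/
theorem complete (I : NotTwoInstance n m) (g : Fin n → Bool)
    (hg : ∀ j, notTwo (I.lit g j 0) (I.lit g j 1) (I.lit g j 2) = true) :
    ∃ (A : (Fin m × Option (Fin 3)) → Fin (2 * 4)) (B : (Fin n ⊕ (Fin m × Fin 3)) → Fin 4),
      ∀ e, I.toGame.π e (A (I.toGame.u e)) = B (I.toGame.v e) := by
  let A : (Fin m × Option (Fin 3)) → Fin 8 := fun x =>
    match x with
    | (j, none) => clauseLabel (I.lit g j 0) (I.lit g j 1) (I.lit g j 2)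
    | (j, some k) => mk3 (I.lit g j (pairFst k)) (I.lit g j (pairSnd k)) false
  let B : (Fin n ⊕ (Fin m × Fin 3)) → Fin 4 := fun x =>
    match x with
    | Sum.inl y => mk2 (g y) false
    | Sum.inr (j, k) => mk2 (I.lit g j (pairFst k)) (I.lit g j (pairSnd k))
  refine ⟨A, B, ?_⟩
  rintro ⟨j, l, i⟩
  cases l with
  | none =>
    obtain ⟨h0, h1, h2⟩ := clauseLabel_spec _ _ _ (hg j)
    fin_cases i
    · simpa [NotTwoInstance.toGame, NotTwoInstance.rightEnd, NotTwoInstance.testMap, A, B,
        pairFst, pairSnd] using h0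
    · simpa [NotTwoInstance.toGame, NotTwoInstance.rightEnd, NotTwoInstance.testMap, A, B,
        pairFst, pairSnd] using h1
    · simpa [NotTwoInstance.toGame, NotTwoInstance.rightEnd, NotTwoInstance.testMap, A, B,
        pairFst, pairSnd] using h2
  | some k =>
    obtain ⟨h0, h1, h2⟩ := checkLabel_spec (g (I.var j (pairFst k))) (g (I.var j (pairSnd k)))
      (I.neg j (pairFst k)) (I.neg j (pairSnd k))
    fin_cases i
    · simpa [NotTwoInstance.toGame, NotTwoInstance.rightEnd, NotTwoInstance.testMap, A, B,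
        NotTwoInstance.lit] using h0
    · simpa [NotTwoInstance.toGame, NotTwoInstance.rightEnd, NotTwoInstance.testMap, A, B,
        NotTwoInstance.lit] using h1
    · simpa [NotTwoInstance.toGame, NotTwoInstance.rightEnd, NotTwoInstance.testMap, A, B,
        NotTwoInstance.lit] using h2

/-- Completeness at the level of values. -/
theorem value_eq_one (hm : 0 < m) (I : NotTwoInstance n m) (h : I.value = 1) :
    I.toGame.value = 1 := by
  obtain ⟨g, hg⟩ := exists_eq_ciSup_of_finite
    (f := fun g : Fin n → Bool => (I.satCount g : ℝ) / (m : ℝ))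
  have hm' : (0 : ℝ) < m := by exact_mod_cast hm
  have h1 : (I.satCount g : ℝ) / (m : ℝ) = 1 := by
    rw [hg]; exact h
  have h2 : (I.satCount g : ℝ) = m := by
    field_simp at h1; linarith
  have h3 : I.satCount g = m := by exact_mod_cast h2
  have hall : ∀ j, notTwo (I.lit g j 0) (I.lit g j 1) (I.lit g j 2) = true := by
    intro j
    have hfilter : (Finset.univ.filter
        (fun j => notTwo (I.lit g j 0) (I.lit g j 1) (I.lit g j 2) = true)) = Finset.univ := by
      apply Finset.eq_univ_of_card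
      rw [Fintype.card_fin]
      exact h3
    have hj : j ∈ (Finset.univ.filter
        (fun j => notTwo (I.lit g j 0) (I.lit g j 1) (I.lit g j 2) = true)) := by
      rw [hfilter]; exact Finset.mem_univ j
    exact (Finset.mem_filter.mp hj).2
  obtain ⟨A, B, hAB⟩ := complete I g hall
  apply le_antisymm (game_value_le_one hm I)
  have hpos : (0 : ℝ) < (Fintype.card (Fin m × Option (Fin 3) × Fin 3) : ℝ) := by
    rw [card_edges]; positivity
  have hfull : (I.toGame.satCount A B : ℝ) / (Fintype.card (Fin m × Option (Fin 3) × Fin 3) : ℝ)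
      = 1 := by
    rw [div_eq_one_iff_eq hpos.ne']
    unfold TwoToOneGame.satCount
    rw [Finset.filter_true_of_mem (fun e _ => hAB e)]
    simp
  unfold TwoToOneGame.value
  rw [← hfull]
  exact le_ciSup (f := fun L : ((Fin m × Option (Fin 3)) → Fin (2 * 4)) ×
      ((Fin n ⊕ (Fin m × Fin 3)) → Fin 4) =>
      (I.toGame.satCount L.1 L.2 : ℝ) / (Fintype.card (Fin m × Option (Fin 3) × Fin 3) : ℝ))
    (Set.finite_range _).bddAbove (A, B)

end Vale.Agent.Lib.P339
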